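import Vale.Agent.P281.H219.KD.NAlg
import Vale.Agent.P281.H716.Sys
import Vale.Agent.P281.H76.Red2
import Mathlib.Analysis.Matrix.Order

/-! P281, theorem KD, block TK, row A: the norms of tensors with poles. -/

open scoped Manifold ContDiff Topology ComplexOrder Matrix Kronecker
open Set Filter Vale.Agent.P281.J Vale.Agent.P272.K Vale.Agent.P272.K.C2 Vale.Agent.P272.K.AMP
open Vale.Agent.P299 Vale.Agent.P299.H954
open Vale.Agent.P299.D (Ten tenPull FormM)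
open Vale.Agent.P281.H498 Vale.Agent.P281.H713 Vale.Agent.P281.H713.KD

noncomputable section

namespace Vale.Agent.P281.H219.KD

section main

variable {n q M : ℕ} {X : Type} [TopologicalSpace X] [ChartedSpace (Cm n) X]
  {Dv : Fin M → Set X} {r : Fin M → X → ℝ} {R : Fin M → FormM n X} {K : Fin M → ℕ}
  {τ τ₀ τ₁ : Ten n q X} {c : ℝ} {G : FormM n X} {e : Chart n X} {x : X}
  {g : Fin M → Cm n → ℂ} {ψ : Fin M → Cm n → ℝ} {a : (Fin q → Fin n) → Cm n → ℂ}

/-- the complement of the divisors -/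
def offD (Dv : Fin M → Set X) : Set X := {y | ∀ i, y ∉ Dv i}

/-- the local expression of the norm -/
def VV (c : ℝ) (K : Fin M → ℕ) (G : FormM n X) (e : Chart n X) (ψ : Fin M → Cm n → ℝ)
    (a : (Fin q → Fin n) → Cm n → ℂ) (z : Cm n) : ℝ :=
  c * nsq (G e z) (fun I => a I z) * ∏ i, Real.exp (-(K i * ψ i z))

/-- the norm, off the divisors -/
def FF (c : ℝ) (K : Fin M → ℕ) (r : Fin M → X → ℝ) (τ : Ten n q X) (G : FormM n X) (y : X) : ℝ :=
  c * nsq (G (chartAt (Cm n) y) (chartAt (Cm n) y y)) (τ (chartAt (Cm n) y) (chartAt (Cm n) y y)) *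
    ∏ i, r i y ^ K i

/-- the norm -/
def NN (Dv : Fin M → Set X) (r : Fin M → X → ℝ) (K : Fin M → ℕ) (τ : Ten n q X) (c : ℝ)
    (G : FormM n X) (x : X) : ℝ := limUnder (𝓝[offD Dv] x) (FF c K r τ G)

theorem eqs_ev (hg : ∀ i, Vale.Agent.P281.IsLocalEq (Cm n) (Dv i) (fun y => g i (e y)) x) :
    ∀ᶠ y in 𝓝 x, ∀ i, y ∈ Dv i ↔ g i (e y) = 0 := by
  rw [eventually_all]
  intro i
  filter_upwards [(hg i).eventually] with y hy
  exact hy.mem_iff

theorem tendsto_symm (he : At e x) : Tendsto e.symm (𝓝 (e x)) (𝓝 x) := by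
  have h := e.continuousAt_symm (e.map_source he.2)
  have h2 := h.tendsto
  rwa [e.left_inv he.2] at h2

theorem VV_smooth (hG : IsHermitian G) (he : At e x) (ha : ∀ I, AnalyticAt ℂ (a I) (e x))
    (hψ : ∀ i, ContDiffAt ℝ ∞ (ψ i) (e x)) : ContDiffAt ℝ ∞ (VV c K G e ψ a) (e x) := by
  have h1 : ContDiffAt ℝ ∞ (fun z => nsq (G e z) (fun I => a I z)) (e x) :=
    contDiffAt_nsq (hG.smooth e x he) (hG.posDef e x he).det_pos.ne'
      fun I => contDiffAt_of_analyticAt (ha I)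
  refine (contDiffAt_const.mul h1).mul (contDiffAt_prod fun i _ => ?_)
  exact (contDiffAt_const.mul (hψ i)).neg.exp

variable [IsManifold 𝓘(ℂ, Cm n) ω X]

theorem dense_offD (hB : IsBd Dv r R) : Dense (offD Dv) := by
  intro x
  rw [mem_closure_iff_frequently]
  obtain ⟨g, ψ, -, -, hl, -, -⟩ := hB.loc (chartAt (Cm n) x) x (C2.at_chartAt x)
  have h1 : ∃ᶠ z in 𝓝 x, ∏ i, g i (chartAt (Cm n) x z) ≠ 0 := by
    refine H716.IsSys.freq_prod (n := n) Finset.univ (fun i z => g i (chartAt (Cm n) x z)) x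
      (fun i _ => ?_) fun i _ => ?_
    · filter_upwards [Vale.Agent.P281.IsLocalEq.eventually (E := Cm n) (hl i)] with y hy
      exact hy.holAt
    · filter_upwards [Vale.Agent.P281.IsLocalEq.eventually (E := Cm n) (hl i)] with y hy
      exact H76.frequently_ne hy
  refine (h1.and_eventually (eqs_ev (Dv := Dv) hl)).mono ?_
  rintro z ⟨h2, h3⟩ i hi
  exact (Finset.prod_ne_zero_iff.1 h2) i (Finset.mem_univ i) ((h3 i).1 hi)

theorem FF_eq_VV (hτ : IsTenK Dv K τ) (hG : IsHermitian G) (he : At e x)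
    (hg : IsEqs Dv e x g) (hψ : IsWts r e x g ψ) (ha : IsNum K τ e x g a) :
    ∀ᶠ y in 𝓝 x, y ∈ offD Dv → FF c K r τ G y = VV c K G e ψ a (e y) := by
  have hc : Tendsto e (𝓝 x) (𝓝 (e x)) := e.continuousAt he.2
  filter_upwards [eqs_ev hg.2, hc.eventually hψ.2, hc.eventually ha.2,
    e.open_source.mem_nhds he.2] with y h1 h2 h3 h4 hy
  have hey : At e y := ⟨he.1, h4⟩
  have hey' : At (chartAt (Cm n) y) y := C2.at_chartAt y
  have h5 : ∀ i, g i (e y) ≠ 0 := fun i h => hy i ((h1 i).2 h)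
  have h6 := h3 h5
  rw [e.left_inv h4] at h2
  have h7 : nsq (G e (e y)) (fun I => a I (e y)) =
      ‖∏ i, g i (e y) ^ K i‖ ^ 2 * nsq (G e (e y)) (τ e (e y)) := by
    rw [← nsq_smul]
    congr 1
    funext I
    exact (h6 I).symm
  have h8 : nsq (G e (e y)) (τ e (e y)) =
      nsq (G (chartAt (Cm n) y) (chartAt (Cm n) y y))
        (τ (chartAt (Cm n) y) (chartAt (Cm n) y y)) :=
    nsq_change (jacM_isUnit hey hey') (hG.change e _ y hey hey') (hτ.change e _ y hey hey' hy)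
  have h9 : ∏ i, r i y ^ K i =
      ‖∏ i, g i (e y) ^ K i‖ ^ 2 * ∏ i, Real.exp (-(K i * ψ i (e y))) := by
    rw [norm_prod, ← Finset.prod_pow, ← Finset.prod_mul_distrib]
    refine Finset.prod_congr rfl fun i _ => ?_
    rw [h2 i, mul_pow, norm_pow, ← Real.exp_nat_mul, ← pow_mul, ← pow_mul, mul_comm 2 (K i)]
    congr 2
    ring
  unfold FF VV
  rw [h7, h8, h9]
  ring

theorem NN_eq (hB : IsBd Dv r R) (hτ : IsTenK Dv K τ) (hG : IsHermitian G) (he : At e x)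
    (hg : IsEqs Dv e x g) (hψ : IsWts r e x g ψ) (ha : IsNum K τ e x g a) :
    ∀ᶠ y in 𝓝 x, NN Dv r K τ c G y = VV c K G e ψ a (e y) := by
  have hc : Tendsto e (𝓝 x) (𝓝 (e x)) := e.continuousAt he.2
  have hs : ContDiffAt ℝ 1 (VV c K G e ψ a) (e x) :=
    (VV_smooth hG he ha.1 hψ.1).of_le (by norm_cast)
  have h1 : ∀ᶠ z in 𝓝 (e x), ContinuousAt (VV c K G e ψ a) z :=
    (hs.eventually (by simp)).mono fun z hz => hz.continuousAt
  filter_upwards [hc.eventually h1, eventually_eventually_nhds.2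
    (FF_eq_VV (c := c) hτ hG he hg hψ ha), e.open_source.mem_nhds he.2] with y h2 h3 h4
  have : (𝓝[offD Dv] y).NeBot := mem_closure_iff_nhdsWithin_neBot.1 (dense_offD hB y)
  refine Tendsto.limUnder_eq ?_
  have h5 : Tendsto (fun w => VV c K G e ψ a (e w)) (𝓝[offD Dv] y)
      (𝓝 (VV c K G e ψ a (e y))) :=
    (ContinuousAt.comp (g := VV c K G e ψ a) h2 (e.continuousAt h4)).tendsto.mono_left
      nhdsWithin_le_nhds
  refine h5.congr' ?_
  filter_upwards [nhdsWithin_le_nhds h3, self_mem_nhdsWithin] with z hz hzS using (hz hzS).symm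

theorem exists_wts (hB : IsBd Dv r R) (he : At e x) (hg : IsEqs Dv e x g) :
    ∃ ψ, IsWts r e x g ψ := by
  obtain ⟨g', ψ', hg', hψ', hl', -, hr⟩ := hB.loc e x he
  have hu : ∀ i, ∃ w : X → ℂ, HolV (Cm n) w x ∧ w x ≠ 0 ∧
      ∀ᶠ z in 𝓝 x, g' i (e z) = w z * g i (e z) := fun i =>
    H76.unit_ratio_red (E := Cm n) (D := Dv i) (hl' i) (hg.2 i)
  choose w hw hw0 hwe using hu
  refine ⟨fun i z => ψ' i z - Real.log (‖w i (e.symm z)‖ ^ 2), fun i => ?_, ?_⟩
  · have h1 : AnalyticAt ℂ (fun z => w i (e.symm z)) (e x) :=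
      (H716.IsSys.holV_chart he (hw i)).analyticAt
    have h2 : ContDiffAt ℝ ∞ (fun z => w i (e.symm z)) (e x) := contDiffAt_of_analyticAt h1
    have h3 : ContDiffAt ℝ ∞ (fun z => ‖w i (e.symm z)‖ ^ 2) (e x) := h2.norm_sq ℂ
    refine (hψ' i).sub (h3.log ?_)
    rw [e.left_inv he.2]
    exact pow_ne_zero 2 (norm_ne_zero_iff.2 (hw0 i))
  · have h0 : ∀ᶠ z in 𝓝 x, ∀ i, w i z ≠ 0 := by
      rw [eventually_all]
      exact fun i => (hw i).continuousAt.eventually_ne (hw0 i)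
    have h1 : ∀ᶠ z in 𝓝 x, ∀ i, g' i (e z) = w i z * g i (e z) := eventually_all.2 hwe
    filter_upwards [hr, (tendsto_symm he).eventually h0, (tendsto_symm he).eventually h1,
      he.nhds_target] with z h2 h3 h4 h5 i
    rw [(h2 i).1]
    have h6 := h4 i
    rw [e.right_inv h5] at h6
    have h7 : (0 : ℝ) < ‖w i (e.symm z)‖ ^ 2 := pow_pos (norm_pos_iff.2 (h3 i)) 2
    rw [h6, norm_mul, mul_pow, neg_sub, sub_eq_add_neg, Real.exp_add, Real.exp_log h7]
    ring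

theorem exists_dat (hB : IsBd Dv r R) (hτ : IsTenK Dv K τ) (he : At e x) :
    ∃ (g : Fin M → Cm n → ℂ) (ψ : Fin M → Cm n → ℝ) (a : (Fin q → Fin n) → Cm n → ℂ),
      IsEqs Dv e x g ∧ IsWts r e x g ψ ∧ IsNum K τ e x g a := by
  obtain ⟨g, ψ, hg, hψ, hl, -, hr⟩ := hB.loc e x he
  have h1 : IsEqs Dv e x g := ⟨hg, hl⟩
  obtain ⟨a, ha⟩ := hτ.num e x he g h1
  exact ⟨g, ψ, a, h1, ⟨hψ, hr.mono fun z hz i => (hz i).1⟩, ha⟩

theorem NN_loc (hB : IsBd Dv r R) (hτ : IsTenK Dv K τ) (hG : IsHermitian G) (he : At e x)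
    (hg : IsEqs Dv e x g) (hψ : IsWts r e x g ψ) (ha : IsNum K τ e x g a) :
    ∀ᶠ z in 𝓝 (e x), NN Dv r K τ c G (e.symm z) = VV c K G e ψ a z := by
  filter_upwards [(tendsto_symm he).eventually (NN_eq (c := c) hB hτ hG he hg hψ ha),
    he.nhds_target] with z h3 h4
  rw [h3, e.right_inv h4]

theorem NN_val (hB : IsBd Dv r R) (hτ : IsTenK Dv K τ) (hG : IsHermitian G) (he : At e x)
    (hg : IsEqs Dv e x g) (hψ : IsWts r e x g ψ) (ha : IsNum K τ e x g a) :
    NN Dv r K τ c G x = VV c K G e ψ a (e x) :=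
  (NN_eq (c := c) hB hτ hG he hg hψ ha).self_of_nhds

theorem prod_exp_pos (K : Fin M → ℕ) (ψ : Fin M → Cm n → ℝ) (z : Cm n) :
    0 < ∏ i, Real.exp (-(K i * ψ i z)) := Finset.prod_pos fun i _ => Real.exp_pos _

theorem isNorm (hB : IsBd Dv r R) (hτ : IsTenK Dv K τ) (hc : 0 < c) :
    IsNorm Dv r K τ c (NN Dv r K τ c) := by
  refine ⟨fun G hG e x he => ?_, fun G x hG => ?_, fun G e x g a hG he hg ha => ?_,
    fun G e x g ψ a hG he hg hψ ha => NN_loc hB hτ hG.toIsHermitian he hg hψ ha⟩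
  · obtain ⟨g, ψ, a, h1, h2, h3⟩ := exists_dat hB hτ he
    exact (VV_smooth hG.toIsHermitian he h3.1 h2.1).congr_of_eventuallyEq
      (NN_loc hB hτ hG.toIsHermitian he h1 h2 h3)
  · obtain ⟨g, ψ, a, h1, h2, h3⟩ := exists_dat hB hτ (C2.at_chartAt (n := n) x)
    rw [NN_val hB hτ hG.toIsHermitian (C2.at_chartAt x) h1 h2 h3]
    exact mul_nonneg (mul_nonneg hc.le (nsq_nonneg (hG.posDef _ x (C2.at_chartAt x))))
      (prod_exp_pos K ψ _).le
  · obtain ⟨ψ, hψ⟩ := exists_wts hB he hg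
    rw [NN_val hB hτ hG.toIsHermitian he hg hψ ha]
    unfold VV
    rw [mul_eq_zero, mul_eq_zero, or_iff_left (prod_exp_pos K ψ _).ne', or_iff_right hc.ne',
      nsq_eq_zero_iff (hG.posDef e x he)]

theorem isHolNorm (hB : IsBd Dv r R) (hτ₀ : IsTenK Dv K τ₀) (hτ₁ : IsTenK Dv K τ₁) (hc : 0 < c)
    (hG : IsKahler G) :
    IsHolNorm (n := n) fun x => NN Dv r K τ₀ c G x + NN Dv r K τ₁ c G x := by
  intro e x he
  obtain ⟨g, ψ, hg, hψ, hl, -, hr⟩ := hB.loc e x he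
  have h1 : IsEqs Dv e x g := ⟨hg, hl⟩
  have h2 : IsWts r e x g ψ := ⟨hψ, hr.mono fun z hz i => (hz i).1⟩
  obtain ⟨a₀, ha₀⟩ := hτ₀.num e x he g h1
  obtain ⟨a₁, ha₁⟩ := hτ₁.num e x he g h1
  have hGH := hG.toIsHermitian
  set E := Fintype.equivFin (Fin 2 × (Fin q → Fin n)) with hE
  set P : Cm n → ℝ := fun z => c * ∏ i, Real.exp (-(K i * ψ i z)) with hP
  have hPpos : ∀ z, 0 < P z := fun z => mul_pos hc (prod_exp_pos K ψ z)
  set T : Cm n → Matrix (Fin q → Fin n) (Fin q → Fin n) ℂ := fun z =>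
    ((P z : ℝ) : ℂ) • metA q (G e z) with hT
  have hTpos : ∀ z, (G e z).PosDef → (T z).PosDef := fun z hz =>
    (metA_posDef hz).smul (by exact_mod_cast hPpos z)
  set H : Cm n → Matrix (Fin (Fintype.card (Fin 2 × (Fin q → Fin n))))
    (Fin (Fintype.card (Fin 2 × (Fin q → Fin n)))) ℂ := fun z =>
    ((1 : Matrix (Fin 2) (Fin 2) ℂ) ⊗ₖ (T z)).submatrix E.symm E.symm with hH
  have hHpos : ∀ z, (G e z).PosDef → (H z).PosDef := fun z hz =>
    (Matrix.PosDef.one.kronecker (hTpos z hz)).submatrix E.symm.injective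
  set A : Fin 2 × (Fin q → Fin n) → Cm n → ℂ := fun b => if b.1 = 0 then a₀ b.2 else a₁ b.2
    with hA
  have hGev : ∀ᶠ z in 𝓝 (e x), (G e z).PosDef := by
    filter_upwards [eventually_at he] with z hz
    have := hGH.posDef e _ hz.1
    rwa [hz.2] at this
  refine ⟨Fintype.card (Fin 2 × (Fin q → Fin n)), fun b => A (E.symm b), H, fun b => ?_,
    fun b b' => ?_, hHpos _ (hGH.posDef e x he), ?_⟩
  · simp only [hA]
    split_ifs
    · exact ha₀.1 _
    · exact ha₁.1 _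
  · have h3 : MC ∞ (fun z => metA q (G e z)) (e x) :=
      MC_tp q (MC_dual (hGH.smooth e x he) (hGH.posDef e x he).det_pos.ne')
    have h4 : ContDiffAt ℝ ∞ P (e x) :=
      contDiffAt_const.mul (contDiffAt_prod fun i _ => (contDiffAt_const.mul (hψ i)).neg.exp)
    have h5 : ∀ I J, ContDiffAt ℝ ∞ (fun z => T z I J) (e x) := fun I J =>
      (Complex.ofRealCLM.contDiff.contDiffAt.comp (e x) h4).mul (h3 I J)
    show ContDiffAt ℝ ∞ (fun z => (1 : Matrix (Fin 2) (Fin 2) ℂ) (E.symm b).1 (E.symm b').1 *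
      T z (E.symm b).2 (E.symm b').2) (e x)
    exact contDiffAt_const.mul (h5 _ _)
  · filter_upwards [hGev, NN_loc (c := c) hB hτ₀ hGH he h1 h2 ha₀,
      NN_loc (c := c) hB hτ₁ hGH he h1 h2 ha₁] with z h3 h4 h5
    refine ⟨(hHpos z h3).isHermitian, ?_⟩
    rw [h4, h5]
    have h6 : ∀ a : (Fin q → Fin n) → Cm n → ℂ, VV c K G e ψ a z =
        (∑ I, ∑ J, a I z * (starRingEnd ℂ) (a J z) * T z I J).re := by
      intro a
      have h7 : ∑ I, ∑ J, a I z * (starRingEnd ℂ) (a J z) * T z I J =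
          ((P z : ℝ) : ℂ) * csq (G e z) (fun I => a I z) := by
        unfold csq
        rw [Finset.mul_sum]
        refine Finset.sum_congr rfl fun I _ => ?_
        rw [Finset.mul_sum]
        refine Finset.sum_congr rfl fun J _ => ?_
        simp only [hT, Matrix.smul_apply, smul_eq_mul, metA, tp_apply, Matrix.transpose_apply]
        ring
      rw [h7, Complex.re_ofReal_mul, ← nsq_eq]
      unfold VV
      simp only [hP]
      ring
    have h8 : ∑ b, ∑ b', A (E.symm b) z * (starRingEnd ℂ) (A (E.symm b') z) * H z b b' =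
        ∑ p : Fin 2 × (Fin q → Fin n), ∑ p' : Fin 2 × (Fin q → Fin n),
          A p z * (starRingEnd ℂ) (A p' z) * (((1 : Matrix (Fin 2) (Fin 2) ℂ) ⊗ₖ (T z)) p p') := by
      rw [← Equiv.sum_comp E.symm (fun p : Fin 2 × (Fin q → Fin n) =>
        ∑ p' : Fin 2 × (Fin q → Fin n),
          A p z * (starRingEnd ℂ) (A p' z) * (((1 : Matrix (Fin 2) (Fin 2) ℂ) ⊗ₖ (T z)) p p'))]
      refine Finset.sum_congr rfl fun b _ => ?_
      rw [← Equiv.sum_comp E.symm (fun p' : Fin 2 × (Fin q → Fin n) =>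
          A (E.symm b) z * (starRingEnd ℂ) (A p' z) *
            (((1 : Matrix (Fin 2) (Fin 2) ℂ) ⊗ₖ (T z)) (E.symm b) p'))]
      rfl
    rw [h6, h6, h8, ← Complex.add_re]
    congr 1
    simp only [Fintype.sum_prod_type, Fin.sum_univ_two, Matrix.kroneckerMap_apply, hA]
    simp

end main

/-- **Row A**: the norms. -/
theorem normPart : NormPart := by
  intro n q M X _ _ _ Dv r R hB K τ₀ τ₁ h₀ h₁ c hc
  exact ⟨NN Dv r K τ₀ c, NN Dv r K τ₁ c, isNorm hB h₀ hc, isNorm hB h₁ hc,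
    fun χ hχ => isHolNorm hB h₀ h₁ hc hχ⟩

end Vale.Agent.P281.H219.KD
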