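import Mathlib.LinearAlgebra.Matrix.NonsingularInverse
import Mathlib.LinearAlgebra.Matrix.PosDef
import Mathlib.Analysis.Complex.Order
import Mathlib.Analysis.Complex.Basic

/-! P281, theorem KD, block TK: the Cauchy-Binet formula with functions, and the square of the norm
of a decomposable tensor. -/

open scoped Matrix ComplexOrder

namespace Vale.Agent.P281.H219.KD

section CB

variable {R : Type*} [CommRing R] {p : ℕ} {ι : Type*} [Fintype ι]

/-- multilinearity of the determinant in the columns -/
theorem det_mul_fun (X : Matrix (Fin p) ι R) (Y : Matrix ι (Fin p) R) :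
    (X * Y).det = ∑ K : Fin p → ι, (X.submatrix id K).det * ∏ c, Y (K c) c := by
  classical
  simp only [Matrix.det_apply, Matrix.mul_apply, Matrix.submatrix_apply, id_eq, Finset.sum_mul]
  rw [Finset.sum_comm]
  refine Finset.sum_congr rfl fun σ _ => ?_
  rw [Finset.prod_univ_sum, Fintype.piFinset_univ, Finset.smul_sum]
  refine Finset.sum_congr rfl fun K _ => ?_
  rw [Finset.prod_mul_distrib, smul_mul_assoc]

/-- Cauchy-Binet, with all functions -/
theorem cauchyBinet_fun (X : Matrix (Fin p) ι R) (Y : Matrix ι (Fin p) R) :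
    ∑ K : Fin p → ι, (X.submatrix id K).det * (Y.submatrix K id).det =
      (p.factorial : R) * (X * Y).det := by
  classical
  have h1 : ∀ K : Fin p → ι, (Y.submatrix K id).det =
      ∑ σ : Equiv.Perm (Fin p), ((Equiv.Perm.sign σ : ℤ) : R) * ∏ c, Y (K (σ c)) c := by
    intro K
    rw [Matrix.det_apply']
    rfl
  simp only [h1, Finset.mul_sum]
  rw [Finset.sum_comm]
  have h2 : ∀ σ : Equiv.Perm (Fin p), ∑ K : Fin p → ι, (X.submatrix id K).det *
      (((Equiv.Perm.sign σ : ℤ) : R) * ∏ c, Y (K (σ c)) c) = (X * Y).det := by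
    intro σ
    rw [det_mul_fun, ← Equiv.sum_comp (Equiv.arrowCongr σ (Equiv.refl ι))]
    refine Finset.sum_congr rfl fun K _ => ?_
    have h3 : ∀ c, (Equiv.arrowCongr σ (Equiv.refl ι)) K (σ c) = K c := by
      intro c
      simp [Equiv.arrowCongr]
    have h4 : (X.submatrix id ((Equiv.arrowCongr σ (Equiv.refl ι)) K)).det =
        ((Equiv.Perm.sign σ : ℤ) : R) * (X.submatrix id K).det := by
      have h5 : X.submatrix id K =
          (X.submatrix id ((Equiv.arrowCongr σ (Equiv.refl ι)) K)).submatrix id σ := by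
        ext a c
        simp only [Matrix.submatrix_apply, id_eq, h3]
      rw [h5, Matrix.det_permute', ← mul_assoc, ← Int.cast_mul]
      have : ((Equiv.Perm.sign σ : ℤ)) * (Equiv.Perm.sign σ : ℤ) = 1 := by
        rw [← Units.val_mul, Int.units_mul_self]; rfl
      rw [this, Int.cast_one, one_mul]
    simp only [h3]
    rw [h4]
    have h6 : (((Equiv.Perm.sign σ : ℤ)) : R) * (((Equiv.Perm.sign σ : ℤ)) : R) = 1 := by
      rw [← Int.cast_mul, ← Units.val_mul, Int.units_mul_self]; simp
    linear_combination ((X.submatrix id K).det * ∏ c, Y (K c) c) * h6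
  rw [Finset.sum_congr rfl fun σ _ => h2 σ]
  simp [Finset.card_univ, Fintype.card_perm]

end CB

section norm

variable {p n : ℕ}

/-- one factor: `∑ det b_I conj (det b_J) ∏ H = p! det (b H b*)` -/
theorem sum_det_H (b : Matrix (Fin p) (Fin n) ℂ) (H : Matrix (Fin n) (Fin n) ℂ) :
    ∑ I : Fin p → Fin n, ∑ J : Fin p → Fin n, (b.submatrix id I).det *
      (starRingEnd ℂ) ((b.submatrix id J).det) * ∏ t, H (I t) (J t) =
      (p.factorial : ℂ) * (b * H * bᴴ).det := by
  rw [Finset.sum_comm]
  have h1 : ∀ J : Fin p → Fin n, ∑ I : Fin p → Fin n, (b.submatrix id I).det *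
      (starRingEnd ℂ) ((b.submatrix id J).det) * ∏ t, H (I t) (J t) =
      ((b * H).submatrix id J).det * ((bᴴ).submatrix J id).det := by
    intro J
    have h2 : ((b * H).submatrix id J) = b * (H.submatrix id J) := by
      ext a c
      simp [Matrix.mul_apply]
    have h3 : ((bᴴ).submatrix J id) = ((b.submatrix id J)ᴴ) := by
      ext a c
      simp [Matrix.conjTranspose_apply]
    rw [h2, h3, Matrix.det_conjTranspose, det_mul_fun, Finset.sum_mul]
    refine Finset.sum_congr rfl fun I _ => ?_
    simp only [Matrix.submatrix_apply, id_eq]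
    show _ = _ * star _
    rw [← starRingEnd_apply]
    ring
  rw [Finset.sum_congr rfl fun J _ => h1 J, cauchyBinet_fun]

end norm

end Vale.Agent.P281.H219.KD
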