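import Vale.Agent.P281.H219.KD.CB
import Mathlib.Algebra.BigOperators.Fin
import Mathlib.Logic.Equiv.Fin.Basic

/-! P281, theorem KD, block TK: the square of the norm of a decomposable tensor. -/

open scoped Matrix ComplexOrder

namespace Vale.Agent.P281.H219.KD

variable {p n : ℕ}

theorem sum_sum_prod {ι : Type*} [Fintype ι] (μ : ℕ) (φ : ι → ι → ℂ) :
    ∑ A : Fin μ → ι, ∑ B : Fin μ → ι, ∏ r, φ (A r) (B r) = (∑ a, ∑ b, φ a b) ^ μ := by
  classical
  have h1 : ∀ A : Fin μ → ι, ∑ B : Fin μ → ι, ∏ r, φ (A r) (B r) = ∏ r, ∑ b, φ (A r) b := by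
    intro A
    rw [Finset.prod_univ_sum, Fintype.piFinset_univ]
  rw [Finset.sum_congr rfl fun A _ => h1 A]
  have h2 : ∏ _r : Fin μ, (∑ a, ∑ b, φ a b) = ∑ A : Fin μ → ι, ∏ r, ∑ b, φ (A r) b := by
    rw [Finset.prod_univ_sum, Fintype.piFinset_univ]
  rw [← h2, Finset.prod_const, Finset.card_univ, Fintype.card_fin]

/-- the index equivalence (same formula as `H713.SA.eqI`) -/
def eqJ (m p n : ℕ) : (Fin m → Fin p → Fin n) ≃ (Fin (m * p) → Fin n) :=
  (Equiv.curry (Fin m) (Fin p) (Fin n)).symm.trans (Equiv.arrowCongr finProdFinEquiv (Equiv.refl _))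

theorem eqJ_apply (m : ℕ) (L : Fin m → Fin p → Fin n) (r : Fin m) (c : Fin p) :
    eqJ m p n L (finProdFinEquiv (r, c)) = L r c := by
  simp [eqJ, Equiv.arrowCongr]

theorem gram_core (μ : ℕ) (b : Matrix (Fin p) (Fin n) ℂ) (H : Matrix (Fin n) (Fin n) ℂ) (c : ℂ) :
    ∑ I : Fin (μ * p) → Fin n, ∑ J : Fin (μ * p) → Fin n,
      (c * ∏ r : Fin μ, (b.submatrix id fun t => I (finProdFinEquiv (r, t))).det) *
      (starRingEnd ℂ) (c * ∏ r : Fin μ, (b.submatrix id fun t => J (finProdFinEquiv (r, t))).det) *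
      ∏ t, H (I t) (J t) =
    ((‖c‖ ^ 2 : ℝ) : ℂ) * ((p.factorial : ℂ) * (b * H * bᴴ).det) ^ μ := by
  rw [← Equiv.sum_comp (eqJ μ p n)]
  have h0 : ∀ A : Fin μ → Fin p → Fin n, ∑ J : Fin (μ * p) → Fin n,
      (c * ∏ r : Fin μ, (b.submatrix id fun t => eqJ μ p n A (finProdFinEquiv (r, t))).det) *
      (starRingEnd ℂ) (c * ∏ r : Fin μ, (b.submatrix id fun t => J (finProdFinEquiv (r, t))).det) *
      ∏ t, H (eqJ μ p n A t) (J t) = ((‖c‖ ^ 2 : ℝ) : ℂ) * ∑ B : Fin μ → Fin p → Fin n,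
      ∏ r, ((b.submatrix id (A r)).det * (starRingEnd ℂ) (b.submatrix id (B r)).det *
        ∏ t, H (A r t) (B r t)) := by
    intro A
    rw [← Equiv.sum_comp (eqJ μ p n), Finset.mul_sum]
    refine Finset.sum_congr rfl fun B _ => ?_
    have h1 : ∏ t, H (eqJ μ p n A t) (eqJ μ p n B t) = ∏ r : Fin μ, ∏ t : Fin p, H (A r t) (B r t) := by
      rw [← Equiv.prod_comp finProdFinEquiv, Fintype.prod_prod_type]
      simp only [eqJ_apply]
    rw [h1, Finset.prod_mul_distrib, Finset.prod_mul_distrib, map_mul, map_prod]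
    simp only [eqJ_apply]
    have h2 : c * (starRingEnd ℂ) c = ((‖c‖ ^ 2 : ℝ) : ℂ) := by
      rw [Complex.mul_conj, Complex.normSq_eq_norm_sq]
    have h3 : ∀ C : Fin μ → Fin p → Fin n, (fun r => (b.submatrix id fun t => C r t).det) =
      fun r => (b.submatrix id (C r)).det := fun C => rfl
    linear_combination (((∏ r, (b.submatrix id (A r)).det) *
      (∏ r, (starRingEnd ℂ) (b.submatrix id (B r)).det)) *
      ∏ r : Fin μ, ∏ t : Fin p, H (A r t) (B r t)) * h2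
  rw [Finset.sum_congr rfl fun A _ => h0 A, ← Finset.mul_sum, sum_sum_prod μ
    (fun a b' : Fin p → Fin n => (b.submatrix id a).det * (starRingEnd ℂ) (b.submatrix id b').det *
        ∏ t, H (a t) (b' t)), sum_det_H]

/-- the determinant of `b H b*` is real if `H` is Hermitian -/
theorem det_im (b : Matrix (Fin p) (Fin n) ℂ) (H : Matrix (Fin n) (Fin n) ℂ) (hH : H.IsHermitian) :
    (((b * H * bᴴ).det.re : ℝ) : ℂ) = (b * H * bᴴ).det := by
  have h1 : (b * H * bᴴ).IsHermitian := by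
    unfold Matrix.IsHermitian
    rw [Matrix.conjTranspose_mul, Matrix.conjTranspose_mul, Matrix.conjTranspose_conjTranspose,
      hH.eq, Matrix.mul_assoc]
  have h2 : (starRingEnd ℂ) (b * H * bᴴ).det = (b * H * bᴴ).det := by
    conv_rhs => rw [← h1.eq]
    rw [Matrix.det_conjTranspose]; rfl
  exact Complex.conj_eq_iff_re.1 h2

theorem gram_re (μ : ℕ) (b : Matrix (Fin p) (Fin n) ℂ) (H : Matrix (Fin n) (Fin n) ℂ)
    (hH : H.IsHermitian) (c : ℂ) :
    (∑ I : Fin (μ * p) → Fin n, ∑ J : Fin (μ * p) → Fin n,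
      (c * ∏ r : Fin μ, (b.submatrix id fun t => I (finProdFinEquiv (r, t))).det) *
      (starRingEnd ℂ) (c * ∏ r : Fin μ, (b.submatrix id fun t => J (finProdFinEquiv (r, t))).det) *
      ∏ t, H (I t) (J t)).re =
    ((p.factorial : ℝ)) ^ μ * (‖c‖ ^ 2 * (b * H * bᴴ).det.re ^ μ) := by
  rw [gram_core, ← det_im b H hH]
  have : (((‖c‖ ^ 2 : ℝ) : ℂ) * ((p.factorial : ℂ) * (((b * H * bᴴ).det.re : ℝ) : ℂ)) ^ μ) =
      ((‖c‖ ^ 2 * ((p.factorial : ℝ) * (b * H * bᴴ).det.re) ^ μ : ℝ) : ℂ) := by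
    push_cast; rfl
  rw [this, Complex.ofReal_re, mul_pow]
  simp only [Complex.ofReal_re]
  ring

end Vale.Agent.P281.H219.KD
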