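import Vale.Agent.P281.H498.KD.TKI
import Vale.Agent.P281.H219.KD.CB2

/-! P281, theorem KD, block TK, row A2: the square of the norm of a decomposable tensor. -/

open scoped Manifold ContDiff Topology ComplexOrder Matrix
open Set Filter Vale.Agent.P281.J Vale.Agent.P272.K Vale.Agent.P272.K.AMP Vale.Agent.P299
open Vale.Agent.P299.D (Ten tenPull FormM)
open Vale.Agent.P281.H498 Vale.Agent.P281.H713 Vale.Agent.P281.H713.SA Vale.Agent.P281.H713.KD

noncomputable section

namespace Vale.Agent.P281.H219.KD

/-- **Row A2**: Cauchy-Binet. -/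
theorem gramPart : GramPart := by
  intro n p μ w hw A c
  have hH : ((w⁻¹).transpose).IsHermitian := hw.inv.isHermitian.transpose
  exact gram_re μ (mat A) ((w⁻¹).transpose) hH c

end Vale.Agent.P281.H219.KD
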