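import Vale.Agent.P281.H498.KD.TKI
import Vale.Agent.P299.H937.Boch

/-! P281, theorem KD, block TK, row A: the square of the norm of a tensor (linear algebra). -/

open scoped Manifold ContDiff Topology ComplexOrder Matrix
open Set Filter Vale.Agent.P281.J Vale.Agent.P272.K Vale.Agent.P272.K.C2 Vale.Agent.P272.K.AMP
open Vale.Agent.P299 Vale.Agent.P299.H954
open Vale.Agent.P299.D (Ten tenPull FormM)
open Vale.Agent.P281.H498

noncomputable section

namespace Vale.Agent.P281.H219.KD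

variable {n q : ℕ} {w w' : Matrix (Fin n) (Fin n) ℂ} {a a' : (Fin q → Fin n) → ℂ}

/-- the complex number whose real part is `nsq w a` -/
def csq (w : Matrix (Fin n) (Fin n) ℂ) (a : (Fin q → Fin n) → ℂ) : ℂ :=
  ∑ I, ∑ J, a I * (starRingEnd ℂ) (a J) * ∏ t, w⁻¹ (J t) (I t)

theorem nsq_eq (w : Matrix (Fin n) (Fin n) ℂ) (a : (Fin q → Fin n) → ℂ) :
    nsq w a = (csq w a).re := rfl

/-- the row of the components -/
def rowA (a : (Fin q → Fin n) → ℂ) : Matrix Unit (Fin q → Fin n) ℂ := Matrix.of fun _ I => a I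

/-- the metric of the bundle of tensors -/
def metA (q : ℕ) (w : Matrix (Fin n) (Fin n) ℂ) : Matrix (Fin q → Fin n) (Fin q → Fin n) ℂ :=
  tp q ((w⁻¹)ᵀ)

theorem metA_posDef (hw : w.PosDef) : (metA q w).PosDef := tp_posDef q hw.inv.transpose

theorem csq_eq (w : Matrix (Fin n) (Fin n) ℂ) (a : (Fin q → Fin n) → ℂ) :
    csq w a = (rowA a * metA q w * (rowA a)ᴴ) () () := by
  simp only [csq, Matrix.mul_apply, rowA, metA, Matrix.of_apply, tp_apply, Matrix.transpose_apply,
    Matrix.conjTranspose_apply, Finset.sum_mul]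
  rw [Finset.sum_comm]
  refine Finset.sum_congr rfl fun I _ => Finset.sum_congr rfl fun J _ => ?_
  show a J * _ * _ = a J * _ * (starRingEnd ℂ) (a I)
  ring

theorem csq_nonneg (hw : w.PosDef) : 0 ≤ csq w a := by
  rw [csq_eq]
  exact ((metA_posDef hw).posSemidef.mul_mul_conjTranspose_same _).diag_nonneg

theorem nsq_nonneg (hw : w.PosDef) : 0 ≤ nsq w a := (Complex.le_def.1 (csq_nonneg hw)).1

theorem csq_real (hw : w.PosDef) : csq w a = (nsq w a : ℂ) :=
  Complex.ext rfl (by simpa using (Complex.le_def.1 (csq_nonneg (a := a) hw)).2.symm)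

theorem nsq_eq_zero_iff (hw : w.PosDef) : nsq w a = 0 ↔ ∀ I, a I = 0 := by
  constructor
  · intro h
    have h1 : csq w a = 0 := by rw [csq_real hw, h]; simp
    by_contra hne
    have h2 : star (rowA a ()) ≠ 0 := by
      intro h3
      apply hne
      intro I
      have := congrFun h3 I
      simpa [rowA] using this
    have h4 := (metA_posDef (q := q) hw).dotProduct_mulVec_pos h2
    have h5 : star (star (rowA a ())) ⬝ᵥ (metA q w).mulVec (star (rowA a ())) = csq w a := by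
      rw [star_star, csq_eq, Matrix.mul_assoc]
      rfl
    rw [h5, h1] at h4
    exact lt_irrefl _ h4
  · intro h
    unfold nsq
    simp [h]

theorem nsq_smul (w : Matrix (Fin n) (Fin n) ℂ) (a : (Fin q → Fin n) → ℂ) (c : ℂ) :
    nsq w (fun I => a I * c) = ‖c‖ ^ 2 * nsq w a := by
  have h : csq w (fun I => a I * c) = ((‖c‖ ^ 2 : ℝ) : ℂ) * csq w a := by
    unfold csq
    rw [Finset.mul_sum]
    refine Finset.sum_congr rfl fun I _ => ?_
    rw [Finset.mul_sum]
    refine Finset.sum_congr rfl fun J _ => ?_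
    have h2 : c * (starRingEnd ℂ) c = ((‖c‖ ^ 2 : ℝ) : ℂ) := by
      rw [Complex.mul_conj, Complex.normSq_eq_norm_sq]
    rw [map_mul, ← h2]
    ring
  rw [nsq_eq, h, Complex.re_ofReal_mul, nsq_eq]

/-- change of coordinates -/
theorem nsq_change {J : Matrix (Fin n) (Fin n) ℂ} (hJ : IsUnit J.det)
    (hw : w = J.transpose * w' * J.map (starRingEnd ℂ)) (ha : ∀ I, a I = tenPull J a' I) :
    nsq w a = nsq w' a' := by
  have hd : (w⁻¹)ᵀ = J⁻¹ * (w'⁻¹)ᵀ * (J⁻¹)ᴴ := by
    rw [hw, inv_form hJ]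
    simp only [Matrix.transpose_mul, Matrix.transpose_nonsing_inv, Matrix.transpose_transpose,
      Matrix.mul_assoc]
    congr 3
    rw [Matrix.conjTranspose_nonsing_inv]
    rfl
  have hm : metA q w = tp q J⁻¹ * metA q w' * (tp q J⁻¹)ᴴ := by
    unfold metA
    rw [hd, tp_mul, tp_mul, tp_conjTranspose]
  have h1 : tp q J * tp q J⁻¹ = 1 := by rw [← tp_mul, Matrix.mul_nonsing_inv _ hJ, tp_one]
  have h2 : (tp q J⁻¹)ᴴ * (tp q J)ᴴ = 1 := by
    rw [← Matrix.conjTranspose_mul, h1, Matrix.conjTranspose_one]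
  have hrow : rowA a = rowA a' * tp q J := by
    ext i I
    show a I = _
    rw [ha I, tenPull, Matrix.mul_apply]
    refine Finset.sum_congr rfl fun K _ => ?_
    show _ = a' K * ∏ a, J (K a) (I a)
    rw [mul_comm]
  rw [nsq_eq, nsq_eq, csq_eq, csq_eq, hrow, hm, Matrix.conjTranspose_mul]
  have e1 : rowA a' * tp q J * (tp q J⁻¹ * metA q w' * (tp q J⁻¹)ᴴ) * ((tp q J)ᴴ * (rowA a')ᴴ) =
      rowA a' * metA q w' * (rowA a')ᴴ := by
    calc _ = rowA a' * (tp q J * tp q J⁻¹) * metA q w' *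
        ((tp q J⁻¹)ᴴ * (tp q J)ᴴ) * (rowA a')ᴴ := by simp only [Matrix.mul_assoc]
      _ = _ := by rw [h1, h2]; simp only [Matrix.mul_assoc, Matrix.mul_one]
  rw [e1]

theorem contDiffAt_csq {r : WithTop ℕ∞} {G : Cm n → Matrix (Fin n) (Fin n) ℂ}
    {a : (Fin q → Fin n) → Cm n → ℂ} {z : Cm n} (hG : MC r G z) (h0 : (G z).det ≠ 0)
    (ha : ∀ I, ContDiffAt ℝ r (a I) z) :
    ContDiffAt ℝ r (fun z => csq (G z) (fun I => a I z)) z := by
  have hi : MC r (fun y => (G y)⁻¹) z := hG.inv h0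
  unfold csq
  refine ContDiffAt.sum fun I _ => ContDiffAt.sum fun J _ => ?_
  refine ((ha I).mul ?_).mul (contDiffAt_prod fun t _ => hi (J t) (I t))
  exact Complex.conjCLE.contDiff.contDiffAt.comp z (ha J)

theorem contDiffAt_nsq {r : WithTop ℕ∞} {G : Cm n → Matrix (Fin n) (Fin n) ℂ}
    {a : (Fin q → Fin n) → Cm n → ℂ} {z : Cm n} (hG : MC r G z) (h0 : (G z).det ≠ 0)
    (ha : ∀ I, ContDiffAt ℝ r (a I) z) :
    ContDiffAt ℝ r (fun z => nsq (G z) (fun I => a I z)) z :=
  Complex.reCLM.contDiff.contDiffAt.comp z (contDiffAt_csq hG h0 ha)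

end Vale.Agent.P281.H219.KD
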